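import Mathlib

/-!
# Square-difference-free sets: a mixed-modulus recursion

`SDF A` says that no two elements of the finite set `A` of naturals differ by a positive square.
Main result of this file (`step`): from a square-difference-free `A₁ ⊆ [0,N)` and a
square-difference-free `A₂ ⊆ [0,25N)` one gets a square-difference-free subset of `[0,42025 N)`
with `2050 |A₁| + 41 |A₂|` elements.
-/

namespace Vale.Agent.Lib.P042

/-- No element of `A` equals another element plus a positive square. -/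
def SDF (A : Finset ℕ) : Prop :=
  ∀ a ∈ A, ∀ b ∈ A, ∀ n : ℕ, 1 ≤ n → a ≠ b + n ^ 2

/-- Ten residues mod 205. -/
def R10 : Finset ℕ := {2, 17, 35, 46, 89, 100, 118, 124, 178, 196}

lemma R10_lt : ∀ r ∈ R10, r < 205 := by decide

lemma R10_card : R10.card = 10 := by decide

set_option maxRecDepth 100000 in
lemma R10_sq : ∀ r ∈ R10, ∀ r' ∈ R10, ∀ t ∈ Finset.range 205, (r' + t ^ 2) % 205 = r → r = r' := by
  decide

lemma R10_cross1 : ∀ r ∈ R10, ∀ t ∈ Finset.range 41, (29 + t ^ 2) % 41 ≠ r % 41 := by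
  decide

lemma R10_cross2 : ∀ r ∈ R10, ∀ t ∈ Finset.range 41, (r + t ^ 2) % 41 ≠ 29 := by
  decide


lemma dvd_of_205_dvd_sq {n : ℕ} (h : 205 ∣ n ^ 2) : 205 ∣ n := by
  have h5 : 5 ∣ n := Nat.Prime.dvd_of_dvd_pow (by norm_num) (Dvd.dvd.trans (by norm_num) h)
  have h41 : 41 ∣ n := Nat.Prime.dvd_of_dvd_pow (by norm_num) (Dvd.dvd.trans (by norm_num) h)
  have hc : Nat.Coprime 5 41 := by norm_num
  have := Nat.Coprime.mul_dvd_of_dvd_of_dvd hc h5 h41
  simpa using this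

lemma dvd_of_41_dvd_sq {n : ℕ} (h : 41 ∣ n ^ 2) : 41 ∣ n :=
  Nat.Prime.dvd_of_dvd_pow (by norm_num) h

/-- First block: residue in `R10` mod 205, free second digit, tail in `A`. -/
def B1 (A : Finset ℕ) : Finset ℕ :=
  (R10 ×ˢ Finset.range 205 ×ˢ A).image (fun t => t.1 + 205 * t.2.1 + 42025 * t.2.2)

/-- Second block: residue 29 mod 41, free second digit, tail in `A`. -/
def B2 (A : Finset ℕ) : Finset ℕ :=
  (Finset.range 41 ×ˢ A).image (fun t => 29 + 41 * t.1 + 1681 * t.2)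

lemma mem_B1 {A : Finset ℕ} {x : ℕ} :
    x ∈ B1 A ↔ ∃ r ∈ R10, ∃ s < 205, ∃ a ∈ A, x = r + 205 * s + 42025 * a := by
  unfold B1
  simp only [Finset.mem_image, Finset.mem_product, Finset.mem_range, Prod.exists]
  constructor
  · rintro ⟨r, s, a, ⟨hr, hs, ha⟩, rfl⟩
    exact ⟨r, hr, s, hs, a, ha, rfl⟩
  · rintro ⟨r, hr, s, hs, a, ha, rfl⟩
    exact ⟨r, s, a, ⟨hr, hs, ha⟩, rfl⟩

lemma mem_B2 {A : Finset ℕ} {x : ℕ} :
    x ∈ B2 A ↔ ∃ s < 41, ∃ a ∈ A, x = 29 + 41 * s + 1681 * a := by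
  unfold B2
  simp only [Finset.mem_image, Finset.mem_product, Finset.mem_range, Prod.exists]
  constructor
  · rintro ⟨s, a, ⟨hs, ha⟩, rfl⟩
    exact ⟨s, hs, a, ha, rfl⟩
  · rintro ⟨s, hs, a, ha, rfl⟩
    exact ⟨s, a, ⟨hs, ha⟩, rfl⟩

lemma card_B1 (A : Finset ℕ) : (B1 A).card = 2050 * A.card := by
  unfold B1
  rw [Finset.card_image_of_injOn]
  · rw [Finset.card_product, Finset.card_product, R10_card, Finset.card_range]
    ring
  · rintro ⟨r, s, a⟩ h ⟨r', s', a'⟩ h' heq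
    simp only [Finset.coe_product, Set.mem_prod, Finset.mem_coe, Finset.mem_range] at h h'
    simp only at heq
    have h1 := R10_lt r h.1
    have h2 := R10_lt r' h'.1
    have h3 := h.2.1
    have h4 := h'.2.1
    have e1 : r = r' := by omega
    have e2 : s = s' := by omega
    have e3 : a = a' := by omega
    subst e1 e2 e3
    rfl

lemma card_B2 (A : Finset ℕ) : (B2 A).card = 41 * A.card := by
  unfold B2
  rw [Finset.card_image_of_injOn]
  · rw [Finset.card_product, Finset.card_range]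
  · rintro ⟨s, a⟩ h ⟨s', a'⟩ h' heq
    simp only [Finset.coe_product, Set.mem_prod, Finset.mem_coe, Finset.mem_range] at h h'
    simp only at heq
    have h3 := h.1
    have h4 := h'.1
    have e2 : s = s' := by omega
    have e3 : a = a' := by omega
    subst e2 e3
    rfl

lemma disjoint_B1_B2 (A₁ A₂ : Finset ℕ) : Disjoint (B1 A₁) (B2 A₂) := by
  rw [Finset.disjoint_left]
  intro x h1 h2
  obtain ⟨r, hr, s, _, a, _, rfl⟩ := mem_B1.1 h1
  obtain ⟨s', _, a', _, h⟩ := mem_B2.1 h2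
  have := R10_cross1 r hr 0 (by simp)
  omega

lemma sdf_case11 {A : Finset ℕ} (hA : SDF A) {r s a r' s' a' n : ℕ} (hr : r ∈ R10) (hs : s < 205)
    (ha : a ∈ A) (hr' : r' ∈ R10) (hs' : s' < 205) (ha' : a' ∈ A) (hn : 1 ≤ n)
    (h : r + 205 * s + 42025 * a = r' + 205 * s' + 42025 * a' + n ^ 2) : False := by
  have h1 := R10_lt r hr
  have h2 := R10_lt r' hr'
  have hpm : n ^ 2 % 205 = (n % 205) ^ 2 % 205 := Nat.pow_mod n 2 205
  have hrr : r = r' := by
    apply R10_sq r hr r' hr' (n % 205) (Finset.mem_range.2 (Nat.mod_lt _ (by norm_num)))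
    generalize n ^ 2 = q at *
    generalize (n % 205) ^ 2 = q' at *
    omega
  subst hrr
  have hd : 205 ∣ n ^ 2 := by
    apply Nat.dvd_of_mod_eq_zero
    generalize n ^ 2 = q at *
    omega
  obtain ⟨m, rfl⟩ := dvd_of_205_dvd_sq hd
  have hm : 1 ≤ m := by
    rcases Nat.eq_zero_or_pos m with h0 | h0
    · subst h0; simp at hn
    · exact h0
  have hsq : (205 * m) ^ 2 = 42025 * m ^ 2 := by ring
  rw [hsq] at h
  apply hA a ha a' ha' m hm
  generalize m ^ 2 = w at *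
  omega

lemma sdf_case22 {A : Finset ℕ} (hA : SDF A) {s a s' a' n : ℕ} (hs : s < 41)
    (ha : a ∈ A) (hs' : s' < 41) (ha' : a' ∈ A) (hn : 1 ≤ n)
    (h : 29 + 41 * s + 1681 * a = 29 + 41 * s' + 1681 * a' + n ^ 2) : False := by
  have hd : 41 ∣ n ^ 2 := by
    apply Nat.dvd_of_mod_eq_zero
    generalize n ^ 2 = q at *
    omega
  obtain ⟨m, rfl⟩ := dvd_of_41_dvd_sq hd
  have hm : 1 ≤ m := by
    rcases Nat.eq_zero_or_pos m with h0 | h0
    · subst h0; simp at hn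
    · exact h0
  have hsq : (41 * m) ^ 2 = 1681 * m ^ 2 := by ring
  rw [hsq] at h
  apply hA a ha a' ha' m hm
  generalize m ^ 2 = w at *
  omega

lemma sdf_case12 {r s a s' a' n : ℕ} (hr : r ∈ R10)
    (h : r + 205 * s + 42025 * a = 29 + 41 * s' + 1681 * a' + n ^ 2) : False := by
  have hpm : n ^ 2 % 41 = (n % 41) ^ 2 % 41 := Nat.pow_mod n 2 41
  apply R10_cross1 r hr (n % 41) (Finset.mem_range.2 (Nat.mod_lt _ (by norm_num)))
  generalize n ^ 2 = q at *
  generalize (n % 41) ^ 2 = q' at *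
  omega

lemma sdf_case21 {r s a s' a' n : ℕ} (hr : r ∈ R10)
    (h : 29 + 41 * s' + 1681 * a' = r + 205 * s + 42025 * a + n ^ 2) : False := by
  have hpm : n ^ 2 % 41 = (n % 41) ^ 2 % 41 := Nat.pow_mod n 2 41
  apply R10_cross2 r hr (n % 41) (Finset.mem_range.2 (Nat.mod_lt _ (by norm_num)))
  generalize n ^ 2 = q at *
  generalize (n % 41) ^ 2 = q' at *
  omega

lemma sdf_union {A₁ A₂ : Finset ℕ} (h₁ : SDF A₁) (h₂ : SDF A₂) : SDF (B1 A₁ ∪ B2 A₂) := by
  intro x hx y hy n hn hxy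
  rcases Finset.mem_union.1 hx with hx | hx <;> rcases Finset.mem_union.1 hy with hy | hy
  · obtain ⟨r, hr, s, hs, a, ha, rfl⟩ := mem_B1.1 hx
    obtain ⟨r', hr', s', hs', a', ha', rfl⟩ := mem_B1.1 hy
    exact sdf_case11 h₁ hr hs ha hr' hs' ha' hn hxy
  · obtain ⟨r, hr, s, hs, a, ha, rfl⟩ := mem_B1.1 hx
    obtain ⟨s', hs', a', ha', rfl⟩ := mem_B2.1 hy
    exact sdf_case12 hr hxy
  · obtain ⟨s', hs', a', ha', rfl⟩ := mem_B2.1 hx
    obtain ⟨r, hr, s, hs, a, ha, rfl⟩ := mem_B1.1 hy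
    exact sdf_case21 hr hxy
  · obtain ⟨s, hs, a, ha, rfl⟩ := mem_B2.1 hx
    obtain ⟨s', hs', a', ha', rfl⟩ := mem_B2.1 hy
    exact sdf_case22 h₂ hs ha hs' ha' hn hxy

/-- The recursion step. -/
theorem step {N : ℕ} {A₁ A₂ : Finset ℕ} (hs₁ : A₁ ⊆ Finset.range N) (h₁ : SDF A₁)
    (hs₂ : A₂ ⊆ Finset.range (25 * N)) (h₂ : SDF A₂) :
    ∃ B : Finset ℕ, B ⊆ Finset.range (42025 * N) ∧ SDF B ∧
      B.card = 2050 * A₁.card + 41 * A₂.card := by
  refine ⟨B1 A₁ ∪ B2 A₂, ?_, sdf_union h₁ h₂, ?_⟩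
  · intro x hx
    rw [Finset.mem_range]
    rcases Finset.mem_union.1 hx with hx | hx
    · obtain ⟨r, hr, s, hs, a, ha, rfl⟩ := mem_B1.1 hx
      have := R10_lt r hr
      have := Finset.mem_range.1 (hs₁ ha)
      omega
    · obtain ⟨s, hs, a, ha, rfl⟩ := mem_B2.1 hx
      have := Finset.mem_range.1 (hs₂ ha)
      omega
  · rw [Finset.card_union_of_disjoint (disjoint_B1_B2 A₁ A₂), card_B1, card_B2]

end Vale.Agent.Lib.P042
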