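import Mathlib
import Vale.Agent.Lib.P042.Step

/-!
# From the recursion to a power lower bound
-/

namespace Vale.Agent.Lib.P042

lemma sdf_singleton_zero : SDF ({0} : Finset ℕ) := by
  intro a ha b hb n hn h
  rw [Finset.mem_singleton] at ha hb
  subst ha hb
  have : 0 < n ^ 2 := by positivity
  omega

lemma succ_rpow_le {γ : ℝ} (h0 : 0 ≤ γ) (h1 : γ ≤ 1) {n n₀ : ℕ} (hn₀ : 1 ≤ n₀) (hn : n₀ ≤ n) :
    ((n : ℝ) + 1) ^ γ ≤ (n : ℝ) ^ γ * (1 + 1 / (n₀ : ℝ)) := by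
  have hn0 : (0 : ℝ) < n₀ := by exact_mod_cast hn₀
  have hnn : (n₀ : ℝ) ≤ n := by exact_mod_cast hn
  have hnpos : (0 : ℝ) < n := lt_of_lt_of_le hn0 hnn
  have e : ((n : ℝ) + 1) = (n : ℝ) * (1 + 1 / (n : ℝ)) := by
    field_simp
  have hx : (1 : ℝ) ≤ 1 + 1 / (n : ℝ) := by
    have : (0 : ℝ) ≤ 1 / (n : ℝ) := by positivity
    linarith
  rw [e, Real.mul_rpow hnpos.le (by linarith)]
  apply mul_le_mul_of_nonneg_left _ (Real.rpow_nonneg hnpos.le γ)
  calc (1 + 1 / (n : ℝ)) ^ γ ≤ (1 + 1 / (n : ℝ)) ^ (1 : ℝ) :=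
        Real.rpow_le_rpow_of_exponent_le hx h1
    _ = 1 + 1 / (n : ℝ) := Real.rpow_one _
    _ ≤ 1 + 1 / (n₀ : ℝ) := by
        have : 1 / (n : ℝ) ≤ 1 / (n₀ : ℝ) := one_div_le_one_div_of_le hn0 hnn
        linarith

theorem power_bound (γ : ℝ) (h0 : 0 ≤ γ) (h1 : γ ≤ 1)
    (hγ : (42025 : ℝ) ^ γ < 2050 + 41 * (25 : ℝ) ^ γ) :
    ∃ c : ℝ, 0 < c ∧ ∀ N : ℕ, 1 ≤ N →
      ∃ A : Finset ℕ, A ⊆ Finset.range N ∧ SDF A ∧ c * (N : ℝ) ^ γ ≤ (A.card : ℝ) := by
  set K : ℝ := (42025 : ℝ) ^ γ with hK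
  set L : ℝ := 2050 + 41 * (25 : ℝ) ^ γ with hL
  have hKpos : 0 < K := Real.rpow_pos_of_pos (by norm_num) γ
  -- choose n₀
  obtain ⟨n₀, hn₀⟩ := exists_nat_ge (K / (L - K) + 1)
  have hLK : 0 < L - K := by linarith
  have hq : 0 ≤ K / (L - K) := by positivity
  have hn₀1 : (1 : ℝ) ≤ n₀ := by linarith
  have hn₀pos : (0 : ℝ) < n₀ := by linarith
  have hn₀nat : 1 ≤ n₀ := by exact_mod_cast hn₀1
  have hkey : K * (1 + 1 / (n₀ : ℝ)) ≤ L := by
    have h2 : K / (L - K) ≤ n₀ := by linarith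
    have h3 : K ≤ n₀ * (L - K) := by
      rwa [div_le_iff₀ hLK] at h2
    have h4 : K / (n₀ : ℝ) ≤ L - K := by
      rw [div_le_iff₀ hn₀pos]
      linarith
    have h5 : K * (1 + 1 / (n₀ : ℝ)) = K + K / (n₀ : ℝ) := by
      field_simp
    rw [h5]
    linarith
  set T : ℕ := 42025 * n₀ with hT
  have hTpos : (0 : ℝ) < (T : ℝ) := by
    have : 0 < T := by omega
    exact_mod_cast this
  have hTγ : 0 < (T : ℝ) ^ γ := Real.rpow_pos_of_pos hTpos γ
  refine ⟨((T : ℝ) ^ γ)⁻¹, inv_pos.2 hTγ, ?_⟩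
  set c : ℝ := ((T : ℝ) ^ γ)⁻¹ with hc
  have hcpos : 0 < c := inv_pos.2 hTγ
  intro N
  induction N using Nat.strong_induction_on with
  | _ N ih =>
    intro hN
    by_cases hlt : N < T
    · refine ⟨{0}, ?_, sdf_singleton_zero, ?_⟩
      · intro x hx
        rw [Finset.mem_singleton] at hx
        subst hx
        exact Finset.mem_range.2 (by omega)
      · have hle : (N : ℝ) ^ γ ≤ (T : ℝ) ^ γ := by
          apply Real.rpow_le_rpow (by positivity) _ h0
          exact_mod_cast hlt.le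
        have : c * (N : ℝ) ^ γ ≤ c * (T : ℝ) ^ γ := mul_le_mul_of_nonneg_left hle hcpos.le
        have h2 : c * (T : ℝ) ^ γ = 1 := by
          rw [hc]
          exact inv_mul_cancel₀ hTγ.ne'
        simp only [Finset.card_singleton, Nat.cast_one]
        linarith
    · have hge : T ≤ N := by omega
      set n : ℕ := N / 42025 with hn
      have hn1 : 42025 * n ≤ N := Nat.mul_div_le N 42025
      have hn2 : N < 42025 * (n + 1) := by
        have := Nat.lt_mul_div_succ N (show 0 < 42025 by norm_num)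
        simpa [hn] using this
      have hn3 : n₀ ≤ n := by
        rw [hn, Nat.le_div_iff_mul_le (by norm_num)]
        omega
      have hn4 : 1 ≤ n := le_trans hn₀nat hn3
      obtain ⟨A₁, hs₁, hA₁, hc₁⟩ := ih n (by omega) hn4
      obtain ⟨A₂, hs₂, hA₂, hc₂⟩ := ih (25 * n) (by omega) (by omega)
      obtain ⟨B, hsB, hB, hcB⟩ := step hs₁ hA₁ hs₂ hA₂
      refine ⟨B, ?_, hB, ?_⟩
      · intro x hx
        have := Finset.mem_range.1 (hsB hx)
        exact Finset.mem_range.2 (by omega)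
      · have hnpos : (0 : ℝ) < n := by exact_mod_cast hn4
        have hnγ : 0 < (n : ℝ) ^ γ := Real.rpow_pos_of_pos hnpos γ
        have e25 : ((25 * n : ℕ) : ℝ) ^ γ = (25 : ℝ) ^ γ * (n : ℝ) ^ γ := by
          push_cast
          exact Real.mul_rpow (by norm_num) hnpos.le
        rw [e25] at hc₂
        have hcard : (B.card : ℝ) = 2050 * (A₁.card : ℝ) + 41 * (A₂.card : ℝ) := by
          rw [hcB]; push_cast; ring
        have hlow : c * (n : ℝ) ^ γ * L ≤ (B.card : ℝ) := by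
          rw [hcard, hL]
          nlinarith [hc₁, hc₂]
        have hNle : (N : ℝ) ≤ 42025 * ((n : ℝ) + 1) := by
          have : N ≤ 42025 * (n + 1) := hn2.le
          exact_mod_cast this
        have hup : (N : ℝ) ^ γ ≤ K * ((n : ℝ) ^ γ * (1 + 1 / (n₀ : ℝ))) := by
          calc (N : ℝ) ^ γ ≤ (42025 * ((n : ℝ) + 1)) ^ γ :=
                Real.rpow_le_rpow (by positivity) hNle h0
            _ = K * ((n : ℝ) + 1) ^ γ := by
                rw [Real.mul_rpow (by norm_num) (by positivity)]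
            _ ≤ K * ((n : ℝ) ^ γ * (1 + 1 / (n₀ : ℝ))) :=
                mul_le_mul_of_nonneg_left (succ_rpow_le h0 h1 hn₀nat hn3) hKpos.le
        calc c * (N : ℝ) ^ γ ≤ c * (K * ((n : ℝ) ^ γ * (1 + 1 / (n₀ : ℝ)))) :=
              mul_le_mul_of_nonneg_left hup hcpos.le
          _ = c * (n : ℝ) ^ γ * (K * (1 + 1 / (n₀ : ℝ))) := by ring
          _ ≤ c * (n : ℝ) ^ γ * L :=
              mul_le_mul_of_nonneg_left hkey (by positivity)
          _ ≤ (B.card : ℝ) := hlow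

end Vale.Agent.Lib.P042
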