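import Mathlib
import Vale.Agent.Lib.P042.Power

/-!
# Numerical verification for the exponent 0.73439 and the final form of the bound
-/

namespace Vale.Agent.Lib.P042

lemma rpow_div_le {x U : ℝ} (hx : 0 ≤ x) (hU : 0 ≤ U) {p q : ℕ} (hq : 0 < q)
    (h : x ^ p ≤ U ^ q) : x ^ ((p : ℝ) / (q : ℝ)) ≤ U := by
  have hq' : (q : ℝ) ≠ 0 := by positivity
  have e1 : x ^ ((p : ℝ) / (q : ℝ)) = (x ^ p) ^ ((q : ℝ)⁻¹) := by
    rw [div_eq_mul_inv, Real.rpow_mul hx, Real.rpow_natCast]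
  have e2 : (U ^ q) ^ ((q : ℝ)⁻¹) = U := by
    rw [← Real.rpow_natCast, ← Real.rpow_mul hU, mul_inv_cancel₀ hq', Real.rpow_one]
  calc x ^ ((p : ℝ) / (q : ℝ)) = (x ^ p) ^ ((q : ℝ)⁻¹) := e1
    _ ≤ (U ^ q) ^ ((q : ℝ)⁻¹) := Real.rpow_le_rpow (by positivity) h (by positivity)
    _ = U := e2

lemma rpow_le_of_nat {x a b p q : ℕ} (hb : 0 < b) (hq : 0 < q) (h : x ^ p * b ^ q ≤ a ^ q) :
    (x : ℝ) ^ ((p : ℝ) / (q : ℝ)) ≤ (a : ℝ) / (b : ℝ) := by
  have hb' : (0 : ℝ) < b := by exact_mod_cast hb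
  apply rpow_div_le (by positivity) (by positivity) hq
  rw [div_pow, le_div_iff₀ (by positivity)]
  exact_mod_cast h

set_option exponentiation.threshold 1000000 in
lemma num1 : 25 ^ 73439 * 10000 ^ 100000 ≤ 106326 ^ 100000 := by decide

set_option exponentiation.threshold 1000000 in
lemma num2 : 1681 ^ 73439 * 1000 ^ 100000 ≤ 233793 ^ 100000 := by decide

lemma bound25 : (25 : ℝ) ^ ((73439 : ℝ) / 100000) ≤ 106326 / 10000 := by
  have := rpow_le_of_nat (x := 25) (a := 106326) (b := 10000) (p := 73439) (q := 100000)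
    (by norm_num) (by norm_num) num1
  simpa using this

lemma bound1681 : (1681 : ℝ) ^ ((73439 : ℝ) / 100000) ≤ 233793 / 1000 := by
  have := rpow_le_of_nat (x := 1681) (a := 233793) (b := 1000) (p := 73439) (q := 100000)
    (by norm_num) (by norm_num) num2
  simpa using this

lemma key_ineq : (42025 : ℝ) ^ ((73439 : ℝ) / 100000) <
    2050 + 41 * (25 : ℝ) ^ ((73439 : ℝ) / 100000) := by
  have e : (42025 : ℝ) = 25 * 1681 := by norm_num
  rw [e, Real.mul_rpow (by norm_num) (by norm_num)]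
  have hu := bound25
  have hv := bound1681
  have hu0 : 0 < (25 : ℝ) ^ ((73439 : ℝ) / 100000) := Real.rpow_pos_of_pos (by norm_num) _
  have hv0 : 0 < (1681 : ℝ) ^ ((73439 : ℝ) / 100000) := Real.rpow_pos_of_pos (by norm_num) _
  set u := (25 : ℝ) ^ ((73439 : ℝ) / 100000)
  set v := (1681 : ℝ) ^ ((73439 : ℝ) / 100000)
  nlinarith [mul_le_mul_of_nonneg_left hv hu0.le]

/-- Translate a square-difference-free subset of `[0,N)` to `[1,N]`, in the integer formulation. -/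
lemma shift {N : ℕ} {A : Finset ℕ} (hs : A ⊆ Finset.range N) (hA : SDF A) :
    ∃ A' : Finset ℕ, A' ⊆ Finset.Icc 1 N ∧
      (∀ a ∈ A', ∀ b ∈ A', ∀ n : ℕ, 1 ≤ n → (a : ℤ) - (b : ℤ) ≠ (n : ℤ) ^ 2) ∧
      A'.card = A.card := by
  refine ⟨A.image (· + 1), ?_, ?_, ?_⟩
  · intro x hx
    obtain ⟨a, ha, rfl⟩ := Finset.mem_image.1 hx
    have := Finset.mem_range.1 (hs ha)
    exact Finset.mem_Icc.2 ⟨by omega, by omega⟩
  · intro x hx y hy n hn h
    obtain ⟨a, ha, rfl⟩ := Finset.mem_image.1 hx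
    obtain ⟨b, hb, rfl⟩ := Finset.mem_image.1 hy
    apply hA a ha b hb n hn
    have h2 : ((a : ℤ)) = (b : ℤ) + (n : ℤ) ^ 2 := by
      push_cast at h
      linarith
    exact_mod_cast h2
  · exact Finset.card_image_of_injective _ (add_left_injective 1)

theorem main_bound : ∃ c : ℝ, 0 < c ∧ ∀ N : ℕ, 1 ≤ N →
    ∃ A : Finset ℕ, A ⊆ Finset.Icc 1 N ∧
      (∀ a ∈ A, ∀ b ∈ A, ∀ n : ℕ, 1 ≤ n → (a : ℤ) - (b : ℤ) ≠ (n : ℤ) ^ 2) ∧
      c * (N : ℝ) ^ ((73439 : ℝ) / 100000) ≤ (A.card : ℝ) := by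
  obtain ⟨c, hc, h⟩ := power_bound ((73439 : ℝ) / 100000) (by norm_num) (by norm_num) key_ineq
  refine ⟨c, hc, fun N hN => ?_⟩
  obtain ⟨A, hs, hA, hcard⟩ := h N hN
  obtain ⟨A', hs', hA', hcard'⟩ := shift hs hA
  exact ⟨A', hs', hA', by rw [hcard']; exact hcard⟩

end Vale.Agent.Lib.P042
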